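import Vale.Agent.P058h29.Focus

/-!
Bouquets of triples with a common focus inside one orbit of coordinate permutations, from data on
a finite orbit of a rotation (explicit blocks).
-/

noncomputable section

namespace Vale.Agent.P058h29

/-- `x` is a rearrangement of `y`. -/
def Rear {I : Type} (x y : I → ℝ) : Prop := ∃ σ : Equiv.Perm I, ∀ i, x i = y (σ i)

lemma Rear.of_eq {I : Type} {x y : I → ℝ} (h : ∀ i, x i = y i) : Rear x y := ⟨1, fun i => h i⟩

lemma Rear.trans {I : Type} {x y z : I → ℝ} (h : Rear x y) (h' : Rear y z) : Rear x z := by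
  obtain ⟨σ, hσ⟩ := h
  obtain ⟨τ, hτ⟩ := h'
  exact ⟨τ * σ, fun i => by rw [hσ, hτ]; rfl⟩

lemma Rear.sum {I I' : Type} {x y : I → ℝ} {x' y' : I' → ℝ} (h : Rear x y) (h' : Rear x' y') :
    Rear (Sum.elim x x') (Sum.elim y y') := by
  obtain ⟨σ, hσ⟩ := h
  obtain ⟨τ, hτ⟩ := h'
  refine ⟨Equiv.sumCongr σ τ, fun i => ?_⟩
  cases i with
  | inl i => exact hσ i
  | inr i => exact hτ i

lemma Rear.swap {I : Type} (x y : I → ℝ) : Rear (Sum.elim x y) (Sum.elim y x) :=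
  ⟨Equiv.sumComm I I, fun i => by cases i <;> rfl⟩

lemma Rear.prod {T I : Type} {x y : T → I → ℝ} (h : ∀ t, Rear (x t) (y t)) :
    Rear (fun p : T × I => x p.1 p.2) (fun p : T × I => y p.1 p.2) := by
  choose σ hσ using h
  exact ⟨Equiv.prodCongrRight σ, fun p => hσ p.1 p.2⟩

/-- Data of a finite orbit of the rotation with cosine `cp` and sine `sp`. -/
structure Circ {I : Type} [Fintype I] (c d : I → ℝ) (Δ cp sp : ℝ) : Prop where
  cc : ∑ j, c j ^ 2 = Δ
  dd : ∑ j, d j ^ 2 = Δ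
  cd : ∑ j, c j * d j = 0
  rot : ∃ σ : Equiv.Perm I, ∀ j, c (σ j) = cp * c j + sp * d j ∧ d (σ j) = cp * d j - sp * c j
  neg : ∃ ν : Equiv.Perm I, ∀ j, c (ν j) = c j ∧ d (ν j) = - d j
  half : ∃ η : Equiv.Perm I, ∀ j, c (η j) = - c j

/-- The weights of the focus. -/
def kap (A : ℝ) : Fin 3 → ℝ := ![1 / (1 + A), -(1 - A) / (1 + A), 1 / (1 + A)]

/-- The squared distances of the triple. -/
def dd (A : ℝ) : Fin 3 → Fin 3 → ℝ :=
  ![![0, 2 * (1 + A), 4 * (1 - A ^ 2)], ![2 * (1 + A), 0, 2 * (1 + A)],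
    ![4 * (1 - A ^ 2), 2 * (1 + A), 0]]

/-- Coefficients of `c` in the main block. -/
def alp (A : ℝ) (plus : Bool) : Fin 3 → ℝ := if plus then ![A, -1, A] else ![1, 1, 1]

/-- Coefficients of `d` in the main block. -/
def bet (B C : ℝ) (plus : Bool) : Fin 3 → ℝ := if plus then ![-B, 0, B] else ![-C, 0, C]

/-- Coefficients of `d` in the filler block. -/
def fbet (C : ℝ) : Fin 3 → ℝ := ![0, -C, 0]

/-- The six sign atoms. -/
def patV (g₁ g₂ : ℝ) : Fin 3 → Fin 6 → ℝ :=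
  ![![g₁, -g₁, -g₁, g₁, g₂, -g₂], ![g₁, -g₁, g₁, -g₁, -g₂, g₂], ![-g₁, g₁, g₁, -g₁, g₂, -g₂]]

/-- One block. -/
def blk {I : Type} (c d : I → ℝ) (A B C g₁ g₂ : ℝ) (plus : Bool) (l : Fin 3) :
    (I ⊕ I) ⊕ Fin 6 → ℝ :=
  Sum.elim (Sum.elim (fun j => alp A plus l * c j + bet B C plus l * d j)
    (fun j => c j + fbet C l * d j)) (patV g₁ g₂ l)

/-- A permutation of the six atoms. -/
def swA : Equiv.Perm (Fin 6) := Equiv.swap 2 3 * Equiv.swap 4 5

/-- A permutation of the six atoms. -/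
def swB : Equiv.Perm (Fin 6) := Equiv.swap 0 1 * Equiv.swap 2 3

lemma rear_pat (g₁ g₂ : ℝ) (l : Fin 3) : Rear (patV g₁ g₂ l) (patV g₁ g₂ 0) := by
  have a0 : swA 0 = 0 := by decide
  have a1 : swA 1 = 1 := by decide
  have a2 : swA 2 = 3 := by decide
  have a3 : swA 3 = 2 := by decide
  have a4 : swA 4 = 5 := by decide
  have a5 : swA 5 = 4 := by decide
  have b0 : swB 0 = 1 := by decide
  have b1 : swB 1 = 0 := by decide
  have b2 : swB 2 = 3 := by decide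
  have b3 : swB 3 = 2 := by decide
  have b4 : swB 4 = 4 := by decide
  have b5 : swB 5 = 5 := by decide
  fin_cases l
  · exact ⟨1, fun _ => rfl⟩
  · refine ⟨swA, fun i => ?_⟩
    fin_cases i <;> simp [patV, a0, a1, a2, a3, a4, a5]
  · refine ⟨swB, fun i => ?_⟩
    fin_cases i <;> simp [patV, b0, b1, b2, b3, b4, b5]

section core

variable {I : Type} [Fintype I] {c d : I → ℝ} {Δ cp sp A C : ℝ}

lemma sum_lin (hc : Circ c d Δ cp sp) (α β : ℝ) :
    ∑ j, (α * c j + β * d j) ^ 2 = (α ^ 2 + β ^ 2) * Δ := by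
  have h : ∀ j, (α * c j + β * d j) ^ 2 =
      α ^ 2 * c j ^ 2 + 2 * α * β * (c j * d j) + β ^ 2 * d j ^ 2 := fun j => by ring
  simp only [h, Finset.sum_add_distrib, ← Finset.mul_sum, hc.cc, hc.dd, hc.cd]
  ring

/-- All coordinates of a block are rearrangements of the reference block. -/
lemma rear_main (hc : Circ c d Δ cp sp) (hAC : A = cp + C * sp) (plus : Bool) (l : Fin 3) :
    Rear (Sum.elim (fun j => alp A plus l * c j + bet (C * cp - sp) C plus l * d j)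
      (fun j => c j + fbet C l * d j)) (Sum.elim (fun j => c j - C * d j) c) := by
  obtain ⟨σ, hσ⟩ := hc.rot
  obtain ⟨ν, hν⟩ := hc.neg
  obtain ⟨η, hη⟩ := hc.half
  have r1 : Rear (fun j => A * c j - (C * cp - sp) * d j) (fun j => c j - C * d j) := by
    refine ⟨σ, fun j => ?_⟩
    show A * c j - (C * cp - sp) * d j = c (σ j) - C * d (σ j)
    rw [(hσ j).1, (hσ j).2, hAC]
    ring
  have r2 : Rear (fun j => A * c j + (C * cp - sp) * d j)
      (fun j => A * c j - (C * cp - sp) * d j) := by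
    refine ⟨ν, fun j => ?_⟩
    show A * c j + (C * cp - sp) * d j = A * c (ν j) - (C * cp - sp) * d (ν j)
    rw [(hν j).1, (hν j).2]
    ring
  have r3 : Rear (fun j => c j + C * d j) (fun j => c j - C * d j) := by
    refine ⟨ν, fun j => ?_⟩
    show c j + C * d j = c (ν j) - C * d (ν j)
    rw [(hν j).1, (hν j).2]
    ring
  have r4 : Rear (fun j => - c j) c := by
    refine ⟨η, fun j => ?_⟩
    rw [hη j]
  have sw := Rear.swap c (fun j => c j - C * d j)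
  cases plus <;> fin_cases l
  · exact Rear.of_eq (by rintro (j | j) <;> simp [alp, bet, fbet] <;> ring)
  · refine Rear.trans (Rear.of_eq ?_) sw
    rintro (j | j) <;> simp [alp, bet, fbet] <;> ring
  · refine Rear.trans (Rear.of_eq ?_) (Rear.sum r3 (Rear.of_eq (x := c) (y := c) fun _ => rfl))
    rintro (j | j) <;> simp [alp, bet, fbet]
  · refine Rear.trans (Rear.of_eq ?_) (Rear.sum r1 (Rear.of_eq (x := c) (y := c) fun _ => rfl))
    rintro (j | j) <;> simp [alp, bet, fbet] <;> ring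
  · refine Rear.trans (Rear.of_eq ?_) ((Rear.sum r4 (Rear.of_eq
      (x := fun j => c j - C * d j) (y := fun j => c j - C * d j) fun _ => rfl)).trans sw)
    rintro (j | j) <;> simp [alp, bet, fbet] <;> ring
  · refine Rear.trans (Rear.of_eq ?_) (Rear.sum (r2.trans r1)
      (Rear.of_eq (x := c) (y := c) fun _ => rfl))
    rintro (j | j) <;> simp [alp, bet, fbet]

lemma rear_blk (hc : Circ c d Δ cp sp) (hAC : A = cp + C * sp) (g₁ g₂ : ℝ) (plus : Bool)
    (l : Fin 3) : Rear (blk c d A (C * cp - sp) C g₁ g₂ plus l)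
      (Sum.elim (Sum.elim (fun j => c j - C * d j) c) (patV g₁ g₂ 0)) :=
  Rear.sum (rear_main hc hAC plus l) (rear_pat g₁ g₂ l)

omit [Fintype I] in
/-- The focus of a block does not depend on its state. -/
lemma blk_focus (hA : 1 + A ≠ 0) (B g₁ g₂ : ℝ) (plus : Bool) (b : (I ⊕ I) ⊕ Fin 6) :
    ∑ l, kap A l * blk c d A B C g₁ g₂ plus l b = ∑ l, kap A l * blk c d A B C g₁ g₂ false l b := by
  cases plus
  · rfl
  rcases b with (j | j) | i
  · simp only [blk, Sum.elim_inl, Fin.sum_univ_three, kap, alp, bet]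
    simp
    field_simp
    ring
  · rfl
  · rfl

/-- Spreads of one block. -/
lemma blk_spread (hc : Circ c d Δ cp sp) (hcs : cp ^ 2 + sp ^ 2 = 1) (hAC : A = cp + C * sp)
    (g₁ g₂ : ℝ) (plus : Bool) (l l' : Fin 3) :
    ∑ b, (blk c d A (C * cp - sp) C g₁ g₂ plus l b - blk c d A (C * cp - sp) C g₁ g₂ plus l' b) ^ 2 =
      (![![0, 2 * C ^ 2 * Δ + 8 * g₁ ^ 2 + 8 * g₂ ^ 2, 4 * C ^ 2 * Δ + 16 * g₁ ^ 2],
        ![2 * C ^ 2 * Δ + 8 * g₁ ^ 2 + 8 * g₂ ^ 2, 0, 2 * C ^ 2 * Δ + 8 * g₁ ^ 2 + 8 * g₂ ^ 2],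
        ![4 * C ^ 2 * Δ + 16 * g₁ ^ 2, 2 * C ^ 2 * Δ + 8 * g₁ ^ 2 + 8 * g₂ ^ 2, 0]] : Fin 3 → Fin 3 → ℝ) l l'
        + (if plus then Δ * dd A l l' else 0) := by
  have hB2 : (C * cp - sp) ^ 2 - C ^ 2 = 1 - A ^ 2 := by
    rw [hAC]
    linear_combination (C ^ 2 + 1) * hcs
  have e1 : ∀ j, (alp A plus l * c j + bet (C * cp - sp) C plus l * d j -
      (alp A plus l' * c j + bet (C * cp - sp) C plus l' * d j)) ^ 2 =
      ((alp A plus l - alp A plus l') * c j +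
        (bet (C * cp - sp) C plus l - bet (C * cp - sp) C plus l') * d j) ^ 2 := fun j => by ring
  have e2 : ∀ j, (c j + fbet C l * d j - (c j + fbet C l' * d j)) ^ 2 =
      (0 * c j + (fbet C l - fbet C l') * d j) ^ 2 := fun j => by ring
  simp only [blk, Fintype.sum_sum_type, Sum.elim_inl, Sum.elim_inr, e1, e2, sum_lin hc,
    Fin.sum_univ_six]
  generalize C * cp - sp = B at hB2
  cases plus <;> fin_cases l <;> fin_cases l' <;> simp [alp, bet, fbet, patV, dd] <;>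
    first
      | ring1
      | linear_combination Δ * hB2
      | linear_combination 4 * Δ * hB2

end core

lemma count_lt (m k : ℕ) (hk : k ≤ m) (a : ℝ) :
    ∑ t : Fin m, (if (t : ℕ) < k then a else 0) = k * a := by
  rw [Fin.sum_univ_eq_sum_range (fun t => if t < k then a else 0) m, ← Finset.sum_filter]
  have h : (Finset.range m).filter (fun t => t < k) = Finset.range k := by
    ext t
    simp only [Finset.mem_filter, Finset.mem_range]
    omega
  rw [h, Finset.sum_const, Finset.card_range, nsmul_eq_mul]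

/-- The main construction from rotation data. -/
theorem exists_bouquet_of_circ {I : Type} [Fintype I] {c d : I → ℝ} {Δ cp sp A C : ℝ}
    (hc : Circ c d Δ cp sp) (hΔ : 0 < Δ) (hcs : cp ^ 2 + sp ^ 2 = 1) (hAC : A = cp + C * sp)
    (hA0 : 0 ≤ A) {m : ℕ} (hm : 0 < m) (hC : (m : ℝ) * C ^ 2 ≤ 1 - A ^ 2) :
    ∃ (n : ℕ) (a : Fin n → ℝ) (h : Fin (m + 1) → Fin 3 → E n),
      (∀ k l, h k l ∈ Vale.Agent.P058h12.orbit n a) ∧
      (∀ k : Fin (m + 1), Lev (fun l l' => dd A l l' / ((m : ℝ) + 1)) ((k : ℕ) + 1) (h k)) ∧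
      ∀ k k', foc (kap A) (h k) = foc (kap A) (h k') := by
  classical
  have hm' : (0 : ℝ) < m := by exact_mod_cast hm
  have hA1 : 1 + A ≠ 0 := by positivity
  -- the sizes of the sign atoms
  set G₁ : ℝ := Δ * ((1 - A ^ 2) / m - C ^ 2) / 4 with hG₁
  set G₂ : ℝ := Δ * A * (1 + A) / (4 * m) with hG₂
  have hG₁0 : 0 ≤ G₁ := by
    have : C ^ 2 ≤ (1 - A ^ 2) / m := by
      rw [le_div_iff₀ hm']
      linarith
    have h2 : 0 ≤ (1 - A ^ 2) / m - C ^ 2 := by linarith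
    positivity
  have hG₂0 : 0 ≤ G₂ := by positivity
  let g₁ : ℝ := Real.sqrt G₁
  let g₂ : ℝ := Real.sqrt G₂
  have hg₁ : g₁ ^ 2 = G₁ := Real.sq_sqrt hG₁0
  have hg₂ : g₂ ^ 2 = G₂ := Real.sq_sqrt hG₂0
  let B : ℝ := C * cp - sp
  let J : Type := Fin m × ((I ⊕ I) ⊕ Fin 6)
  let H : Fin (m + 1) → Fin 3 → J → ℝ := fun k l p =>
    blk c d A B C g₁ g₂ (decide ((p.1 : ℕ) < (k : ℕ))) l p.2
  let ref : J → ℝ := fun p => Sum.elim (Sum.elim (fun j => c j - C * d j) c) (patV g₁ g₂ 0) p.2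
  -- the scale
  let s : ℝ := Real.sqrt (1 / (((m : ℝ) + 1) * Δ))
  have hs : s ^ 2 = 1 / (((m : ℝ) + 1) * Δ) := Real.sq_sqrt (by positivity)
  let n : ℕ := Fintype.card J
  let e : J ≃ Fin n := Fintype.equivFin J
  refine ⟨n, fun i => s * ref (e.symm i), fun k l => WithLp.toLp 2 (fun i => s * H k l (e.symm i)),
    ?_, ?_, ?_⟩
  · -- orbit
    intro k l
    obtain ⟨σ, hσ⟩ : Rear (H k l) ref :=
      Rear.prod (T := Fin m) (fun t => rear_blk hc hAC g₁ g₂ (decide ((t : ℕ) < (k : ℕ))) l)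
    refine ⟨e.symm.trans (σ.trans e), fun i => ?_⟩
    show s * H k l (e.symm i) = s * ref (e.symm (e (σ (e.symm i))))
    rw [Equiv.symm_apply_apply, hσ]
  · -- spreads
    intro k l l'
    have hsum : ∑ p : J, (H k l p - H k l' p) ^ 2 =
        ((k : ℝ) + 1) * (Δ * dd A l l') := by
      have hT : (m : ℝ) * (![![0, 2 * C ^ 2 * Δ + 8 * g₁ ^ 2 + 8 * g₂ ^ 2, 4 * C ^ 2 * Δ + 16 * g₁ ^ 2],
          ![2 * C ^ 2 * Δ + 8 * g₁ ^ 2 + 8 * g₂ ^ 2, 0, 2 * C ^ 2 * Δ + 8 * g₁ ^ 2 + 8 * g₂ ^ 2],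
          ![4 * C ^ 2 * Δ + 16 * g₁ ^ 2, 2 * C ^ 2 * Δ + 8 * g₁ ^ 2 + 8 * g₂ ^ 2, 0]] :
            Fin 3 → Fin 3 → ℝ) l l' = Δ * dd A l l' := by
        rw [hg₁, hg₂, hG₁, hG₂]
        fin_cases l <;> fin_cases l' <;> simp [dd] <;> field_simp <;> ring
      have hkm : (k : ℕ) ≤ m := Nat.lt_succ_iff.1 k.2
      have h2 : ∀ t : Fin m, ∑ b, (H k l (t, b) - H k l' (t, b)) ^ 2 =
          (![![0, 2 * C ^ 2 * Δ + 8 * g₁ ^ 2 + 8 * g₂ ^ 2, 4 * C ^ 2 * Δ + 16 * g₁ ^ 2],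
            ![2 * C ^ 2 * Δ + 8 * g₁ ^ 2 + 8 * g₂ ^ 2, 0, 2 * C ^ 2 * Δ + 8 * g₁ ^ 2 + 8 * g₂ ^ 2],
            ![4 * C ^ 2 * Δ + 16 * g₁ ^ 2, 2 * C ^ 2 * Δ + 8 * g₁ ^ 2 + 8 * g₂ ^ 2, 0]] :
              Fin 3 → Fin 3 → ℝ) l l' + (if (t : ℕ) < (k : ℕ) then Δ * dd A l l' else 0) := by
        intro t
        have h3 := blk_spread hc hcs hAC g₁ g₂ (decide ((t : ℕ) < (k : ℕ))) l l'
        simp only [decide_eq_true_eq] at h3
        exact h3
      show ∑ p : Fin m × ((I ⊕ I) ⊕ Fin 6), (H k l p - H k l' p) ^ 2 = _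
      rw [Fintype.sum_prod_type, Finset.sum_congr rfl (fun t _ => h2 t), Finset.sum_add_distrib,
        Finset.sum_const, Finset.card_univ, Fintype.card_fin, nsmul_eq_mul, count_lt m k hkm, hT]
      ring
    have hn : ‖(WithLp.toLp 2 (fun i => s * H k l (e.symm i)) : E n) -
        WithLp.toLp 2 (fun i => s * H k l' (e.symm i))‖ ^ 2 =
        s ^ 2 * ∑ p : J, (H k l p - H k l' p) ^ 2 := by
      rw [EuclideanSpace.real_norm_sq_eq, ← Equiv.sum_comp e, Finset.mul_sum]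
      refine Finset.sum_congr rfl fun p _ => ?_
      simp only [PiLp.sub_apply, Equiv.symm_apply_apply]
      ring
    show ‖(WithLp.toLp 2 (fun i => s * H k l (e.symm i)) : E n) -
        WithLp.toLp 2 (fun i => s * H k l' (e.symm i))‖ ^ 2 = _
    rw [hn, hsum, hs]
    push_cast
    field_simp
  · -- focus
    intro k k'
    ext i
    have h1 : ∀ k : Fin (m + 1), foc (kap A) (fun l => (WithLp.toLp 2
        (fun i => s * H k l (e.symm i)) : E n)) i =
        s * ∑ l, kap A l * blk c d A B C g₁ g₂ false l (e.symm i).2 := by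
      intro k
      rw [← blk_focus hA1 B g₁ g₂ (decide (((e.symm i).1 : ℕ) < (k : ℕ))) (e.symm i).2]
      simp only [foc, Fin.sum_univ_three, PiLp.add_apply, PiLp.smul_apply, H, smul_eq_mul]
      ring
    rw [h1 k, h1 k']

end Vale.Agent.P058h29
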