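import Vale.Agent.P058h29.Bouquet

/-!
Rotation data on `ZMod (2 n)` and approximation of an arbitrary angle by rational multiples of `π`.
-/

noncomputable section

namespace Vale.Agent.P058h29

section circle

variable {N : ℕ} [NeZero N]

/-- The standard character of `ZMod N`. -/
def ee (j : ZMod N) : ℂ := ZMod.stdAddChar j

lemma ee_add (j j' : ZMod N) : ee (j + j') = ee j * ee j' :=
  AddChar.map_add_eq_mul _ _ _

lemma ee_zero : ee (0 : ZMod N) = 1 := AddChar.map_zero_eq_one _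

lemma ee_norm (j : ZMod N) : ‖ee j‖ = 1 := by
  simp only [ee, ZMod.stdAddChar_apply]
  exact Circle.norm_coe _

lemma ee_neg (j : ZMod N) : ee (-j) = (starRingEnd ℂ) (ee j) :=
  AddChar.map_neg_eq_conj _ _

lemma ee_inj : Function.Injective (ee : ZMod N → ℂ) := ZMod.injective_stdAddChar

lemma sq_re_add (j : ZMod N) : (ee j).re ^ 2 + (ee j).im ^ 2 = 1 := by
  have h := Complex.sq_norm (ee j)
  rw [ee_norm, Complex.normSq_apply] at h
  nlinarith

lemma sum_sq_eq_zero (hN : 2 < N) : ∑ j : ZMod N, ee j ^ 2 = 0 := by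
  have h1 : ∑ j : ZMod N, ee (j + 1) ^ 2 = ∑ j : ZMod N, ee j ^ 2 :=
    Equiv.sum_comp (Equiv.addRight (1 : ZMod N)) (fun j => ee j ^ 2)
  have h2 : ∑ j : ZMod N, ee (j + 1) ^ 2 = ee (1 : ZMod N) ^ 2 * ∑ j : ZMod N, ee j ^ 2 := by
    rw [Finset.mul_sum]
    refine Finset.sum_congr rfl fun j _ => ?_
    rw [ee_add]
    ring
  have h3 : ee (1 : ZMod N) ^ 2 ≠ 1 := by
    intro h
    have h4 : ee ((1 : ZMod N) + 1) = ee (0 : ZMod N) := by
      rw [ee_add, ee_zero, ← h]
      ring
    have h5 := ee_inj h4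
    have h6 : ((2 : ℕ) : ZMod N) = 0 := by
      push_cast
      rw [← h5]
      norm_num
    rw [ZMod.natCast_eq_zero_iff] at h6
    have := Nat.le_of_dvd (by norm_num) h6
    omega
  rw [h1] at h2
  have h7 : (ee (1 : ZMod N) ^ 2 - 1) * ∑ j : ZMod N, ee j ^ 2 = 0 := by
    rw [sub_mul, one_mul, ← h2, sub_self]
  exact (mul_eq_zero.1 h7).resolve_left (sub_ne_zero.2 h3)

/-- Rotation data from the character. -/
lemma circ_ee (hN : 2 < N) (τ h : ZMod N) (hh : ee h = -1) :
    Circ (fun j : ZMod N => (ee j).re) (fun j => (ee j).im) ((N : ℝ) / 2) (ee τ).re (ee τ).im := by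
  have hS := sum_sq_eq_zero hN
  have hre : ∑ j : ZMod N, ((ee j).re ^ 2 - (ee j).im ^ 2) = 0 := by
    have := congrArg Complex.re hS
    rw [Complex.re_sum] at this
    simpa [sq] using this
  have him : ∑ j : ZMod N, (ee j).re * (ee j).im = 0 := by
    have := congrArg Complex.im hS
    rw [Complex.im_sum] at this
    have h2 : ∀ j : ZMod N, (ee j ^ 2).im = 2 * ((ee j).re * (ee j).im) := by
      intro j
      simp [sq]
      ring
    simp only [h2, ← Finset.mul_sum] at this
    simpa using this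
  have hnorm : ∑ j : ZMod N, ((ee j).re ^ 2 + (ee j).im ^ 2) = N := by
    simp only [sq_re_add, Finset.sum_const, Finset.card_univ, ZMod.card, nsmul_eq_mul, mul_one]
  rw [Finset.sum_sub_distrib] at hre
  rw [Finset.sum_add_distrib] at hnorm
  refine ⟨by linarith, by linarith, him, ⟨Equiv.subRight τ, fun j => ?_⟩,
    ⟨Equiv.neg _, fun j => ?_⟩, ⟨Equiv.addRight h, fun j => ?_⟩⟩
  · have h1 : ee (j - τ) = ee j * (starRingEnd ℂ) (ee τ) := by
      rw [sub_eq_add_neg, ee_add, ee_neg]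
    simp only [Equiv.subRight_apply, h1, Complex.mul_re, Complex.mul_im, Complex.conj_re,
      Complex.conj_im]
    constructor <;> ring
  · simp only [Equiv.neg_apply, ee_neg, Complex.conj_re, Complex.conj_im, and_self]
  · simp [Equiv.addRight, ee_add, hh]

end circle

/-- The character of `ZMod (2 n)` at the class of `p`. -/
lemma ee_natCast (n p : ℕ) (hn : 0 < n) [NeZero (2 * n)] :
    ee (((p : ℤ) : ZMod (2 * n))) = Complex.exp ((Real.pi * p / n : ℝ) * Complex.I) := by
  rw [ee, ZMod.stdAddChar_coe]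
  congr 1
  have hn' : (n : ℂ) ≠ 0 := by exact_mod_cast hn.ne'
  push_cast
  field_simp

/-- Rotation data for the rational angle `π p / n`. -/
lemma circ_rat (n p : ℕ) (hn : 2 ≤ n) :
    ∃ (N : ℕ) (_ : NeZero N) (c d : ZMod N → ℝ),
      Circ c d (n : ℝ) (Real.cos (Real.pi * p / n)) (Real.sin (Real.pi * p / n)) := by
  haveI : NeZero (2 * n) := ⟨by omega⟩
  have hn0 : (n : ℝ) ≠ 0 := by
    have : 0 < n := by omega
    exact_mod_cast this.ne'
  have hh : ee (((n : ℤ) : ZMod (2 * n))) = -1 := by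
    rw [ee_natCast n n (by omega)]
    have : (Real.pi * n / n : ℝ) = Real.pi := by field_simp
    rw [this]
    exact Complex.exp_pi_mul_I
  have h := circ_ee (N := 2 * n) (by omega) ((p : ℤ) : ZMod (2 * n)) _ hh
  rw [ee_natCast n p (by omega), Complex.exp_ofReal_mul_I_re, Complex.exp_ofReal_mul_I_im] at h
  have h2 : ((2 * n : ℕ) : ℝ) / 2 = n := by
    push_cast
    ring
  rw [h2] at h
  exact ⟨2 * n, inferInstance, _, _, h⟩

/-- For every `A` in `[0, 1)` there is a rational angle with small parameter `C`. -/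
lemma exists_angle (A : ℝ) (hA0 : 0 ≤ A) (hA1 : A < 1) (m : ℕ) :
    ∃ n p : ℕ, 2 ≤ n ∧ 0 < Real.sin (Real.pi * p / n) ∧
      (m : ℝ) * ((A - Real.cos (Real.pi * p / n)) / Real.sin (Real.pi * p / n)) ^ 2 ≤ 1 - A ^ 2 := by
  set φ : ℝ := Real.arccos A with hφ
  have hcosφ : Real.cos φ = A := Real.cos_arccos (by linarith) hA1.le
  have hφ0 : 0 < φ := Real.arccos_pos.2 hA1
  have hφπ : φ < Real.pi := lt_of_le_of_ne (Real.arccos_le_pi A) (by
    rw [Ne, Real.arccos_eq_pi]
    linarith)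
  have hsinφ : Real.sin φ ≠ 0 := (Real.sin_pos_of_pos_of_lt_pi hφ0 hφπ).ne'
  have hA2 : 0 < 1 - A ^ 2 := by nlinarith
  have hcont : ContinuousAt (fun ψ : ℝ => (m : ℝ) * ((A - Real.cos ψ) / Real.sin ψ) ^ 2) φ := by
    apply ContinuousAt.mul continuousAt_const
    apply ContinuousAt.pow
    exact ContinuousAt.div (by fun_prop) (by fun_prop) hsinφ
  obtain ⟨η, hη, hcl⟩ := Metric.continuousAt_iff.1 hcont (1 - A ^ 2) hA2
  have hlt : φ / Real.pi < (φ + min η (Real.pi - φ)) / Real.pi := by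
    apply div_lt_div_of_pos_right _ Real.pi_pos
    have : 0 < min η (Real.pi - φ) := lt_min hη (by linarith)
    linarith
  obtain ⟨r, hr1, hr2⟩ := exists_rat_btwn hlt
  have hφr : φ < Real.pi * r := by
    rw [div_lt_iff₀ Real.pi_pos] at hr1
    linarith
  have hrφ : Real.pi * r < φ + min η (Real.pi - φ) := by
    rw [lt_div_iff₀ Real.pi_pos] at hr2
    linarith
  have hrpos : (0 : ℝ) < r := by
    have : 0 < Real.pi * r := by linarith
    exact (pos_iff_pos_of_mul_pos this).1 Real.pi_pos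
  have hnum : 0 < r.num := Rat.num_pos.2 (by exact_mod_cast hrpos)
  refine ⟨2 * r.den, 2 * r.num.toNat, by have := r.den_pos; omega, ?_⟩
  have hangle : Real.pi * ((2 * r.num.toNat : ℕ) : ℝ) / ((2 * r.den : ℕ) : ℝ) = Real.pi * r := by
    have hden : (r.den : ℝ) ≠ 0 := by exact_mod_cast r.den_nz
    have h1 : (r : ℝ) = (r.num : ℝ) / r.den := by
      exact_mod_cast (Rat.num_div_den r).symm
    have h2 : ((r.num.toNat : ℕ) : ℝ) = r.num := by
      have : ((r.num.toNat : ℤ) : ℝ) = r.num := by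
        rw [Int.toNat_of_nonneg hnum.le]
      exact_mod_cast this
    rw [h1]
    push_cast
    rw [h2]
    field_simp
  rw [hangle]
  have hmin1 : min η (Real.pi - φ) ≤ η := min_le_left _ _
  have hmin2 : min η (Real.pi - φ) ≤ Real.pi - φ := min_le_right _ _
  refine ⟨Real.sin_pos_of_pos_of_lt_pi (by linarith) (by linarith), ?_⟩
  have hd : dist (Real.pi * (r : ℝ)) φ < η := by
    rw [Real.dist_eq, abs_of_pos (by linarith)]
    linarith
  have h3 := hcl hd
  simp only [hcosφ, sub_self, zero_div] at h3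
  rw [Real.dist_eq] at h3
  have h4 := (abs_lt.1 h3).2
  norm_num at h4
  exact h4.le

/-- Bouquets exist for all kites: this is the statement used for the focusing induction. -/
theorem exists_bouquet (A : ℝ) (hA0 : 0 ≤ A) (hA1 : A < 1) {m : ℕ} (hm : 0 < m) :
    ∃ (n : ℕ) (a : Fin n → ℝ) (h : Fin (m + 1) → Fin 3 → E n),
      (∀ k l, h k l ∈ Vale.Agent.P058h12.orbit n a) ∧
      (∀ k : Fin (m + 1), Lev (fun l l' => dd A l l' / ((m : ℝ) + 1)) ((k : ℕ) + 1) (h k)) ∧
      ∀ k k', foc (kap A) (h k) = foc (kap A) (h k') := by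
  obtain ⟨n, p, hn, hsin, hsmall⟩ := exists_angle A hA0 hA1 m
  obtain ⟨N, _, c, d, hcirc⟩ := circ_rat n p hn
  have hn0 : (0 : ℝ) < n := by
    have : 0 < n := by omega
    exact_mod_cast this
  refine exists_bouquet_of_circ (C := (A - Real.cos (Real.pi * p / n)) / Real.sin (Real.pi * p / n))
    hcirc hn0 (by rw [add_comm]; exact Real.sin_sq_add_cos_sq _) ?_ hA0 hm hsmall
  field_simp
  ring

end Vale.Agent.P058h29
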