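import Vale.Agent.P058h12.Ramsey

/-!
The focusing induction.  A triple of points with a prescribed affine combination (the focus) is
Ramsey as soon as bouquets of triples with a common focus and with spreads `1, 2, ..., K` times a
fixed form are Ramsey.
-/

open Filter

noncomputable section

namespace Vale.Agent.P058h29

/-- The Euclidean space of dimension `D`. -/
abbrev E (D : ℕ) : Type := EuclideanSpace ℝ (Fin D)

/-- Squared norm of a combination with total weight zero in terms of mutual distances. -/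
lemma norm_sum_sq {ι V : Type} [Fintype ι] [NormedAddCommGroup V] [InnerProductSpace ℝ V]
    (x : ι → V) (c : ι → ℝ) (hc : ∑ i, c i = 0) :
    ‖∑ i, c i • x i‖ ^ 2 = - (1 / 2) * ∑ i, ∑ j, c i * c j * ‖x i - x j‖ ^ 2 := by
  have h1 : ‖∑ i, c i • x i‖ ^ 2 = ∑ i, ∑ j, c i * c j * inner ℝ (x i) (x j) := by
    rw [← real_inner_self_eq_norm_sq, sum_inner]
    refine Finset.sum_congr rfl fun i _ => ?_
    rw [inner_sum]
    refine Finset.sum_congr rfl fun j _ => ?_
    rw [inner_smul_left, inner_smul_right]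
    simp
    ring
  have h2 : ∑ i, ∑ j, c i * c j * ‖x i - x j‖ ^ 2 =
      (∑ i, c i * ‖x i‖ ^ 2) * (∑ j, c j) + (∑ i, c i) * (∑ j, c j * ‖x j‖ ^ 2)
        - 2 * ∑ i, ∑ j, c i * c j * inner ℝ (x i) (x j) := by
    rw [Finset.sum_mul_sum, Finset.sum_mul_sum, Finset.mul_sum, ← Finset.sum_add_distrib,
      ← Finset.sum_sub_distrib]
    refine Finset.sum_congr rfl fun i _ => ?_
    rw [Finset.mul_sum, ← Finset.sum_add_distrib, ← Finset.sum_sub_distrib]
    refine Finset.sum_congr rfl fun j _ => ?_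
    rw [norm_sub_sq_real]
    ring
  rw [h2, hc, h1]
  ring

/-- Combinations of total weight zero have norms determined by the mutual distances. -/
lemma norm_sum_eq {ι V W : Type} [Fintype ι] [NormedAddCommGroup V] [InnerProductSpace ℝ V]
    [NormedAddCommGroup W] [InnerProductSpace ℝ W] (x : ι → V) (y : ι → W) (c : ι → ℝ)
    (hc : ∑ i, c i = 0) (hd : ∀ i j, ‖x i - x j‖ = ‖y i - y j‖) :
    ‖∑ i, c i • x i‖ = ‖∑ i, c i • y i‖ := by
  have h : ‖∑ i, c i • x i‖ ^ 2 = ‖∑ i, c i • y i‖ ^ 2 := by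
    rw [norm_sum_sq x c hc, norm_sum_sq y c hc]
    simp only [hd]
  exact (sq_eq_sq₀ (norm_nonneg _) (norm_nonneg _)).1 h

/-- Compactness: a Ramsey statement has a finite witness. -/
theorem exists_finite_witness {X ι P : Type} [Finite ι] [Finite P] (good : (ι → X) → Prop)
    (h : ∀ χ : X → P, ∃ f, good f ∧ ∃ col, ∀ i, χ (f i) = col) :
    ∃ U : Set X, U.Finite ∧
      ∀ χ : X → P, ∃ f, good f ∧ (∀ i, f i ∈ U) ∧ ∃ col, ∀ i, χ (f i) = col := by
  classical
  by_contra hno
  push Not at hno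
  have h' : ∀ U : Finset X, ∃ χ : X → P, ∀ f, good f → (∀ i, f i ∈ U) → ∀ col, ∃ i, χ (f i) ≠ col := by
    intro U
    obtain ⟨χ, hχ⟩ := hno (U : Set X) U.finite_toSet
    exact ⟨χ, fun f hf hU col => hχ f hf (fun i => Finset.mem_coe.2 (hU i)) col⟩
  choose χ hχ using h'
  let 𝓤 : Ultrafilter (Finset X) := Ultrafilter.of atTop
  have hlim : ∀ x, ∃ col, ∀ᶠ U in (𝓤 : Filter (Finset X)), χ U x = col := by
    intro x
    obtain ⟨col, hcol⟩ := (Ultrafilter.map (fun U => χ U x) 𝓤).eq_pure_of_finite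
    refine ⟨col, ?_⟩
    have h1 : ({col} : Set P) ∈ Ultrafilter.map (fun U => χ U x) 𝓤 := by
      rw [hcol]
      simp
    exact h1
  choose c hc using hlim
  obtain ⟨f, hf, col, hcol⟩ := h c
  have h1 : ∀ᶠ U in (𝓤 : Filter (Finset X)), ∀ i, χ U (f i) = c (f i) :=
    eventually_all.2 (fun i => hc (f i))
  haveI : Fintype ι := Fintype.ofFinite ι
  have h2 : ∀ᶠ U in (𝓤 : Filter (Finset X)), ∀ i, f i ∈ U := by
    have h3 : ∀ᶠ U in (atTop : Filter (Finset X)), Finset.univ.image f ≤ U :=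
      eventually_ge_atTop _
    have h4 : ∀ᶠ U in (atTop : Filter (Finset X)), ∀ i, f i ∈ U := by
      filter_upwards [h3] with U hU i
      exact hU (Finset.mem_image_of_mem f (Finset.mem_univ i))
    exact Ultrafilter.of_le atTop h4
  obtain ⟨U, hU1, hU2⟩ := (h1.and h2).exists
  obtain ⟨i, hi⟩ := hχ U f hf hU2 col
  exact hi (by rw [hU1]; exact hcol i)

/-- Concatenation of two vectors. -/
def pair {D₁ D₂ : ℕ} (x : E D₁) (y : E D₂) : E (D₁ + D₂) :=
  WithLp.toLp 2 (Fin.append (fun i => x i) (fun i => y i))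

lemma pair_left {D₁ D₂ : ℕ} (x : E D₁) (y : E D₂) (i : Fin D₁) :
    pair x y (Fin.castAdd D₂ i) = x i := by
  simp [pair]

lemma pair_right {D₁ D₂ : ℕ} (x : E D₁) (y : E D₂) (i : Fin D₂) :
    pair x y (Fin.natAdd D₁ i) = y i := by
  simp [pair]

lemma norm_pair_sub {D₁ D₂ : ℕ} (x x' : E D₁) (y y' : E D₂) :
    ‖pair x y - pair x' y'‖ ^ 2 = ‖x - x'‖ ^ 2 + ‖y - y'‖ ^ 2 := by
  rw [EuclideanSpace.real_norm_sq_eq, EuclideanSpace.real_norm_sq_eq,
    EuclideanSpace.real_norm_sq_eq, Fin.sum_univ_add]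
  simp only [PiLp.sub_apply, pair_left, pair_right]

/-- Concatenation commutes with combinations of three vectors. -/
lemma sum_pair {D₁ D₂ : ℕ} (κ : Fin 3 → ℝ) (x : Fin 3 → E D₁) (y : Fin 3 → E D₂) :
    ∑ l, κ l • pair (x l) (y l) = pair (∑ l, κ l • x l) (∑ l, κ l • y l) := by
  ext i
  refine Fin.addCases (fun i => ?_) (fun i => ?_) i
  · simp only [Fin.sum_univ_three, pair_left, PiLp.add_apply, PiLp.smul_apply]
  · simp only [Fin.sum_univ_three, pair_right, PiLp.add_apply, PiLp.smul_apply]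

section focusing

variable (κ : Fin 3 → ℝ) (δ : Fin 3 → Fin 3 → ℝ)

/-- The focus of a triple. -/
def foc {D : ℕ} (y : Fin 3 → E D) : E D := ∑ l, κ l • y l

/-- A triple of level `j`: squared distances are `j` times `δ`. -/
def Lev {D : ℕ} (j : ℕ) (y : Fin 3 → E D) : Prop := ∀ l l', ‖y l - y l'‖ ^ 2 = (j : ℝ) * δ l l'

/-- Finite witnesses for bouquets of `r + 1` triples with levels `1, ..., r + 1` and common focus,
for every finite set of colours. -/
def BouqW (r : ℕ) : Prop :=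
  ∀ (P : Type) [Finite P], ∃ (D : ℕ) (U : Set (E D)), 1 ≤ D ∧ U.Finite ∧ ∀ χ : E D → P,
    ∃ f : Fin (r + 1) → Fin 3 → E D, (∀ k l, f k l ∈ U) ∧ (∃ col, ∀ k l, χ (f k l) = col) ∧
      (∀ k : Fin (r + 1), Lev δ ((k : ℕ) + 1) (f k)) ∧ ∀ k k', foc κ (f k) = foc κ (f k')

/-- A monochromatic triple of top level together with its focus. -/
def Mono {D r : ℕ} (χ : E D → Fin r) (V : Set (E D)) : Prop :=
  ∃ y : Fin 3 → E D, (∀ l, y l ∈ V) ∧ foc κ y ∈ V ∧ Lev δ (r + 1) y ∧
    ∃ col, (∀ l, χ (y l) = col) ∧ χ (foc κ y) = col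

/-- The inductive statement: `s` colours are focused at one point. -/
def St (r s : ℕ) : Prop :=
  ∃ (D : ℕ) (V : Set (E D)), 1 ≤ D ∧ V.Finite ∧ ∀ χ : E D → Fin r, Mono κ δ χ V ∨
    ∃ z ∈ V, ∃ C : Finset (Fin r), C.card = s ∧ ∀ c ∈ C, ∀ j : ℕ, s + 1 ≤ j → j ≤ r + 1 →
      ∃ y : Fin 3 → E D, (∀ l, y l ∈ V) ∧ Lev δ j y ∧ foc κ y = z ∧ ∀ l, χ (y l) = c

lemma St.base (r : ℕ) : St κ δ r 0 :=
  ⟨1, {0}, le_rfl, Set.finite_singleton _, fun _ =>
    Or.inr ⟨0, rfl, ∅, rfl, fun c hc => absurd hc (Finset.notMem_empty c)⟩⟩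

variable {κ δ}

lemma foc_pair {D₁ D₂ : ℕ} (x : Fin 3 → E D₁) (y : Fin 3 → E D₂) :
    foc κ (fun l => pair (x l) (y l)) = pair (foc κ x) (foc κ y) :=
  sum_pair κ x y

lemma foc_const {D : ℕ} (hκ : ∑ l, κ l = 1) (z : E D) : foc κ (fun _ : Fin 3 => z) = z := by
  simp only [foc]
  rw [← Finset.sum_smul, hκ, one_smul]

theorem St.step (hκ : ∑ l, κ l = 1) {r s : ℕ} (hr : 0 < r) (hs : St κ δ r s)
    (hB : BouqW κ δ r) : St κ δ r (s + 1) := by
  classical
  obtain ⟨D₂, V, hD₂, hV, hχ⟩ := hs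
  haveI : Finite V := hV.to_subtype
  obtain ⟨D₁, U, -, hU, hUc⟩ := hB (V → Fin r)
  let F : Set (E D₁) := U ∪ (foc κ) '' {g | ∀ l, g l ∈ U}
  have hF : F.Finite := hU.union ((Set.Finite.pi' (fun _ => hU)).image _)
  refine ⟨D₁ + D₂, Set.image2 pair F V, by omega, hF.image2 _ hV, fun χ => ?_⟩
  obtain ⟨f, hfU, ⟨P₀, hP₀⟩, hflev, hffoc⟩ := hUc (fun u v => χ (pair u (v : E D₂)))
  let u₄ : E D₁ := foc κ (f 0)
  have hu₄ : u₄ ∈ F := Or.inr ⟨f 0, fun l => hfU 0 l, rfl⟩
  let χ' : E D₂ → Fin r := fun v => if h : v ∈ V then P₀ ⟨v, h⟩ else ⟨0, hr⟩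
  have hχ' : ∀ k l v, v ∈ V → χ (pair (f k l) v) = χ' v := by
    intro k l v hv
    have h1 := congrFun (hP₀ k l) ⟨v, hv⟩
    simp only [χ', dif_pos hv]
    exact h1
  have hmem : ∀ k l v, v ∈ V → pair (f k l) v ∈ Set.image2 pair F V := fun k l v hv =>
    Set.mem_image2_of_mem (Or.inl (hfU k l)) hv
  have hlift : Mono κ δ χ' V → Mono κ δ χ (Set.image2 pair F V) := by
    rintro ⟨y, hyV, hfV, hlev, col, hcol, hcolf⟩
    have hfocus : foc κ (fun l => pair (f 0 0) (y l)) = pair (f 0 0) (foc κ y) := by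
      have h1 := foc_pair (κ := κ) (fun _ => f 0 0) y
      rw [foc_const hκ] at h1
      exact h1
    refine ⟨fun l => pair (f 0 0) (y l), fun l => hmem 0 0 _ (hyV l), ?_, ?_, col, ?_, ?_⟩
    · rw [hfocus]
      exact hmem 0 0 _ hfV
    · intro l l'
      rw [norm_pair_sub, hlev l l']
      simp
    · intro l
      rw [hχ' 0 0 _ (hyV l)]
      exact hcol l
    · rw [hfocus, hχ' 0 0 _ hfV]
      exact hcolf
  rcases hχ χ' with hm | ⟨z, hz, C, hC, htr⟩
  · exact Or.inl (hlift hm)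
  have hsr : s ≤ r := by
    have := C.card_le_univ
    rw [hC, Fintype.card_fin] at this
    exact this
  by_cases hzC : χ' z ∈ C
  · obtain ⟨y, hyV, hlev, hfoc, hcol⟩ := htr _ hzC (r + 1) (by omega) le_rfl
    exact Or.inl (hlift ⟨y, hyV, by rw [hfoc]; exact hz, hlev, _, hcol, by rw [hfoc]⟩)
  · refine Or.inr ⟨pair u₄ z, Set.mem_image2_of_mem hu₄ hz, insert (χ' z) C, ?_, ?_⟩
    · rw [Finset.card_insert_of_notMem hzC, hC]
    intro c hc j hj1 hj2
    rw [Finset.mem_insert] at hc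
    rcases hc with rfl | hc
    · -- the new colour: a triple of the bouquet, with constant second component
      let k : Fin (r + 1) := ⟨j - 1, by omega⟩
      refine ⟨fun l => pair (f k l) z, fun l => hmem k l z hz, ?_, ?_, fun l => hχ' k l z hz⟩
      · intro l l'
        rw [norm_pair_sub, hflev k l l']
        have : ((j - 1 : ℕ) : ℝ) + 1 = j := by
          have h1 : j - 1 + 1 = j := by omega
          exact_mod_cast h1
        simp only [k, sub_self, norm_zero]
        push_cast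
        rw [this]
        ring
      · have h1 := foc_pair (κ := κ) (f k) (fun _ => z)
        rw [foc_const hκ] at h1
        rw [h1, hffoc k 0]
    · -- an old colour: the triple of level one of the bouquet, added to an old triple
      obtain ⟨y, hyV, hlev, hfoc, hcol⟩ := htr c hc (j - 1) (by omega) (by omega)
      refine ⟨fun l => pair (f 0 l) (y l), fun l => hmem 0 l _ (hyV l), ?_, ?_, fun l => ?_⟩
      · intro l l'
        rw [norm_pair_sub, hflev 0 l l', hlev l l']
        have : ((j - 1 : ℕ) : ℝ) + 1 = j := by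
          have h1 : j - 1 + 1 = j := by omega
          exact_mod_cast h1
        rw [← this]
        simp
        ring
      · rw [foc_pair, hfoc]
      · rw [hχ' 0 l _ (hyV l)]
        exact hcol l

theorem St.all (hκ : ∑ l, κ l = 1) {r : ℕ} (hr : 0 < r) (hB : BouqW κ δ r) (s : ℕ) :
    St κ δ r s := by
  induction s with
  | zero => exact St.base κ δ r
  | succ s ih => exact St.step hκ hr ih hB

/-- The conclusion of the focusing induction. -/
theorem focus_main (hκ : ∑ l, κ l = 1) {r : ℕ} (hr : 0 < r) (hB : BouqW κ δ r) :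
    ∃ D : ℕ, 1 ≤ D ∧ ∀ χ : E D → Fin r, ∃ y : Fin 3 → E D, Lev δ (r + 1) y ∧
      ∃ col, (∀ l, χ (y l) = col) ∧ χ (foc κ y) = col := by
  obtain ⟨D, V, hD, -, h⟩ := St.all hκ hr hB r
  refine ⟨D, hD, fun χ => ?_⟩
  rcases h χ with ⟨y, -, -, hlev, col, hcol, hcolf⟩ | ⟨z, -, C, hC, htr⟩
  · exact ⟨y, hlev, col, hcol, hcolf⟩
  · have hCu : C = Finset.univ := by
      apply Finset.eq_univ_of_card
      rw [hC, Fintype.card_fin]
    obtain ⟨y, -, hlev, hfoc, hcol⟩ := htr (χ z) (by rw [hCu]; exact Finset.mem_univ _)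
      (r + 1) (by omega) le_rfl
    exact ⟨y, hlev, χ z, hcol, by rw [hfoc]⟩

/-- Bouquets inside one orbit of coordinate permutations have finite witnesses. -/
theorem bouqW_of_orbit {r n : ℕ} {a : Fin n → ℝ} (h : Fin (r + 1) → Fin 3 → E n)
    (horb : ∀ k l, h k l ∈ Vale.Agent.P058h12.orbit n a)
    (hlev : ∀ k : Fin (r + 1), Lev δ ((k : ℕ) + 1) (h k))
    (hfoc : ∀ k k', foc κ (h k) = foc κ (h k')) : BouqW κ δ r := by
  intro P _
  classical
  let q : ℕ := Nat.card P + 2
  let e : P ≃ Fin (Nat.card P) := Finite.equivFin P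
  let emb : P → Fin q := fun p => Fin.castLE (by omega) (e p)
  have hemb : Function.Injective emb := fun p p' hpp => by
    have h1 : (e p : ℕ) = e p' := by
      simpa [emb] using congrArg Fin.val hpp
    exact e.injective (Fin.ext h1)
  obtain ⟨D, hD, hc⟩ := Vale.Agent.P058h12.orbit_ramsey n a q (by omega)
  let good : (Fin (r + 1) × Fin 3 → E D) → Prop := fun g =>
    (∀ k : Fin (r + 1), Lev δ ((k : ℕ) + 1) (fun l => g (k, l))) ∧
      ∀ k k', foc κ (fun l => g (k, l)) = foc κ (fun l => g (k', l))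
  have hfin := exists_finite_witness (P := P) good (by
    intro χ
    obtain ⟨f, hf, col, hcol⟩ := hc (fun x => emb (χ x))
    have hd : ∀ k l k' l', ‖f (h k l) - f (h k' l')‖ = ‖h k l - h k' l'‖ := by
      intro k l k' l'
      rw [← dist_eq_norm, ← dist_eq_norm]
      exact hf _ (horb k l) _ (horb k' l')
    refine ⟨fun p => f (h p.1 p.2), ⟨?_, ?_⟩, χ (f (h 0 0)), ?_⟩
    · intro k l l'
      show ‖f (h k l) - f (h k l')‖ ^ 2 = _
      rw [hd]
      exact hlev k l l'
    · intro k k'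
      -- the difference of the two foci has norm zero
      have h1 : ‖∑ i : Bool × Fin 3, (if i.1 then κ i.2 else - κ i.2) •
          f (h (if i.1 then k else k') i.2)‖ =
          ‖∑ i : Bool × Fin 3, (if i.1 then κ i.2 else - κ i.2) •
          h (if i.1 then k else k') i.2‖ := by
        apply norm_sum_eq
        · rw [Fintype.sum_prod_type]
          simp
        · intro i j
          exact hd _ _ _ _
      have h2 : ∑ i : Bool × Fin 3, (if i.1 then κ i.2 else - κ i.2) •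
          h (if i.1 then k else k') i.2 = foc κ (h k) - foc κ (h k') := by
        rw [Fintype.sum_prod_type]
        simp [foc, Finset.sum_neg_distrib, sub_eq_add_neg]
      have h3 : ∑ i : Bool × Fin 3, (if i.1 then κ i.2 else - κ i.2) •
          f (h (if i.1 then k else k') i.2) =
          foc κ (fun l => f (h k l)) - foc κ (fun l => f (h k' l)) := by
        rw [Fintype.sum_prod_type]
        simp [foc, Finset.sum_neg_distrib, sub_eq_add_neg]
      rw [h2, h3, hfoc k k', sub_self, norm_zero, norm_eq_zero, sub_eq_zero] at h1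
      exact h1
    · intro p
      apply hemb
      rw [hcol _ (horb p.1 p.2), hcol _ (horb 0 0)])
  obtain ⟨U, hU, hUc⟩ := hfin
  refine ⟨D, U, hD, hU, fun χ => ?_⟩
  obtain ⟨g, ⟨hg1, hg2⟩, hgU, col, hcol⟩ := hUc χ
  exact ⟨fun k l => g (k, l), fun k l => hgU _, ⟨col, fun k l => hcol _⟩, hg1, hg2⟩

end focusing

end Vale.Agent.P058h29
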