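import Vale.Agent.P058h29.Circle

/-!
Every cyclic kite is Ramsey.
-/

noncomputable section

namespace Vale.Agent.P058h29

open Vale.Agent.P058

/-- The four vertices of the kite on the unit circle with axis the diameter from `(0, 1)` to
`(0, -1)` and the two other vertices at height `-A`. -/
def kitePt (A : ℝ) : Fin 4 → E 2 :=
  ![WithLp.toLp 2 ![Real.sqrt (1 - A ^ 2), -A], WithLp.toLp 2 ![0, 1],
    WithLp.toLp 2 ![-Real.sqrt (1 - A ^ 2), -A], WithLp.toLp 2 ![0, -1]]

/-- The kite as a set. -/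
def kite (A : ℝ) : Set (E 2) := Set.range (kitePt A)

lemma norm_sub_foc {V W : Type} [NormedAddCommGroup V] [InnerProductSpace ℝ V]
    [NormedAddCommGroup W] [InnerProductSpace ℝ W] (x : Fin 3 → V) (y : Fin 3 → W)
    (κ : Fin 3 → ℝ) (hκ : ∑ l, κ l = 1) (hd : ∀ l l', ‖x l - x l'‖ = ‖y l - y l'‖) (l : Fin 3) :
    ‖x l - ∑ t, κ t • x t‖ = ‖y l - ∑ t, κ t • y t‖ := by
  classical
  have h := norm_sum_eq x y (fun t => (if t = l then (1 : ℝ) else 0) - κ t)
    (by simp [Finset.sum_sub_distrib, hκ]) hd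
  simp only [sub_smul, Finset.sum_sub_distrib, ite_smul, one_smul, zero_smul, Finset.sum_ite_eq',
    Finset.mem_univ, if_true] at h
  exact h

/-- A family with prescribed mutual distances is the image of a map. -/
lemma exists_map_of_indexed {k D : ℕ} {ι : Type} (p : ι → E k) (Y : ι → E D)
    (hd : ∀ i j, dist (Y i) (Y j) = dist (p i) (p j)) : ∃ f : E k → E D, ∀ i, f (p i) = Y i := by
  classical
  refine ⟨fun x => if h : ∃ i, p i = x then Y h.choose else 0, fun i => ?_⟩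
  have h : ∃ j, p j = p i := ⟨i, rfl⟩
  show (if h : ∃ j, p j = p i then Y h.choose else 0) = Y i
  rw [dif_pos h]
  have h2 := h.choose_spec
  have h3 := hd h.choose i
  rw [h2, dist_self] at h3
  exact dist_eq_zero.1 h3

/-- General form: three points, and their focus. -/
theorem ramsey_of_bouquets {k : ℕ} (p : Fin 4 → E k) (κ : Fin 3 → ℝ) (hκ : ∑ l, κ l = 1)
    (Δ : Fin 3 → Fin 3 → ℝ)
    (hp : ∀ l l' : Fin 3, ‖p l.castSucc - p l'.castSucc‖ ^ 2 = Δ l l')
    (hfoc : ∑ l : Fin 3, κ l • p l.castSucc = p (Fin.last 3))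
    (hB : ∀ m : ℕ, 0 < m → ∃ (n : ℕ) (a : Fin n → ℝ) (h : Fin (m + 1) → Fin 3 → E n),
      (∀ k l, h k l ∈ Vale.Agent.P058h12.orbit n a) ∧
      (∀ k : Fin (m + 1), Lev (fun l l' => Δ l l' / ((m : ℝ) + 1)) ((k : ℕ) + 1) (h k)) ∧
      ∀ k k', foc κ (h k) = foc κ (h k')) : IsRamsey (Set.range p) := by
  intro r hr
  have hr0 : 0 < r := by omega
  obtain ⟨n, a, h, horb, hlev, hfo⟩ := hB r hr0
  obtain ⟨D, hD, hmain⟩ := focus_main hκ hr0 (bouqW_of_orbit h horb hlev hfo)
  refine ⟨D, hD, fun χ => ?_⟩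
  obtain ⟨y, hlevy, col, hcol, hcolf⟩ := hmain χ
  have hyx : ∀ l l' : Fin 3, ‖p l.castSucc - p l'.castSucc‖ = ‖y l - y l'‖ := by
    intro l l'
    have h1 := hlevy l l'
    have hr1 : ((r : ℝ) + 1) ≠ 0 := by positivity
    have h2 : ‖y l - y l'‖ ^ 2 = Δ l l' := by
      rw [h1]
      push_cast
      field_simp
    have h3 := hp l l'
    rw [← h2] at h3
    exact (sq_eq_sq₀ (norm_nonneg _) (norm_nonneg _)).1 h3
  have hxf : ∀ l : Fin 3, ‖p l.castSucc - p (Fin.last 3)‖ = ‖y l - foc κ y‖ := by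
    intro l
    rw [← hfoc]
    exact norm_sub_foc (fun l : Fin 3 => p l.castSucc) y κ hκ hyx l
  let Y : Fin 4 → E D := fun i => Fin.lastCases (foc κ y) y i
  have hY1 : ∀ l : Fin 3, Y l.castSucc = y l := fun l => Fin.lastCases_castSucc l
  have hY2 : Y (Fin.last 3) = foc κ y := Fin.lastCases_last
  have hdist : ∀ i j, dist (Y i) (Y j) = dist (p i) (p j) := by
    intro i j
    rw [dist_eq_norm, dist_eq_norm]
    induction i using Fin.lastCases with
    | last =>
      induction j using Fin.lastCases with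
      | last => simp
      | cast j =>
        rw [hY1, hY2, norm_sub_rev, ← hxf j, norm_sub_rev]
    | cast i =>
      induction j using Fin.lastCases with
      | last => rw [hY1, hY2, ← hxf i]
      | cast j => rw [hY1, hY1, hyx i j]
  obtain ⟨f, hf⟩ := exists_map_of_indexed p Y hdist
  refine ⟨f, ?_, col, ?_⟩
  · rintro _ ⟨i, rfl⟩ _ ⟨j, rfl⟩
    rw [hf, hf]
    exact hdist i j
  · rintro _ ⟨i, rfl⟩
    rw [hf]
    induction i using Fin.lastCases with
    | last => rw [hY2]; exact hcolf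
    | cast i => rw [hY1]; exact hcol i

/-- The vertices of a kite lie on the unit circle. -/
lemma norm_kitePt {A : ℝ} (hA : A ^ 2 ≤ 1) (i : Fin 4) : ‖kitePt A i‖ = 1 := by
  have ha : Real.sqrt (1 - A ^ 2) ^ 2 = 1 - A ^ 2 := Real.sq_sqrt (by linarith)
  have h : ‖kitePt A i‖ ^ 2 = 1 := by
    rw [EuclideanSpace.real_norm_sq_eq, Fin.sum_univ_two]
    fin_cases i <;> simp [kitePt, ha]
  have h2 : ‖kitePt A i‖ ^ 2 = 1 ^ 2 := by rw [h]; norm_num
  exact (sq_eq_sq₀ (norm_nonneg _) zero_le_one).1 h2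

/-- The vertices of a kite are pairwise distinct. -/
lemma kitePt_injective {A : ℝ} (hA0 : 0 ≤ A) (hA1 : A < 1) : Function.Injective (kitePt A) := by
  have hpos : 0 < Real.sqrt (1 - A ^ 2) := Real.sqrt_pos.2 (by nlinarith)
  have hv0 : ∀ i, kitePt A i 0 = ![Real.sqrt (1 - A ^ 2), 0, -Real.sqrt (1 - A ^ 2), 0] i := by
    intro i
    fin_cases i <;> simp [kitePt]
  have hv1 : ∀ i, kitePt A i 1 = ![-A, 1, -A, -1] i := by
    intro i
    fin_cases i <;> simp [kitePt]
  intro i j hij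
  have e0 := congrArg (fun w : E 2 => w 0) hij
  have e1 := congrArg (fun w : E 2 => w 1) hij
  simp only [hv0, hv1] at e0 e1
  fin_cases i <;> fin_cases j <;> first
    | rfl
    | (exfalso; simp at e0 e1; linarith)

lemma kite_dist {A : ℝ} (hA : A ^ 2 ≤ 1) (l l' : Fin 3) :
    ‖kitePt A l.castSucc - kitePt A l'.castSucc‖ ^ 2 = dd A l l' := by
  have ha : Real.sqrt (1 - A ^ 2) ^ 2 = 1 - A ^ 2 := Real.sq_sqrt (by linarith)
  rw [EuclideanSpace.real_norm_sq_eq, Fin.sum_univ_two]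
  fin_cases l <;> fin_cases l' <;> simp [kitePt, dd] <;> ring_nf <;>
    (try rw [ha]) <;> ring

lemma kite_foc {A : ℝ} (hA : 1 + A ≠ 0) :
    ∑ l : Fin 3, kap A l • kitePt A l.castSucc = kitePt A (Fin.last 3) := by
  ext i
  rw [Fin.sum_univ_three]
  fin_cases i <;> simp [kitePt, kap] <;> field_simp <;> ring

lemma kap_sum {A : ℝ} (hA : 1 + A ≠ 0) : ∑ l, kap A l = 1 := by
  rw [Fin.sum_univ_three]
  simp [kap]
  field_simp
  ring

/-- **Every cyclic kite is Ramsey.** (Reflection in the horizontal axis brings every cyclic kite to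
this form with `A ≥ 0`.) -/
theorem kite_ramsey (A : ℝ) (hA0 : 0 ≤ A) (hA1 : A < 1) : IsRamsey (kite A) := by
  have h1 : 1 + A ≠ 0 := by positivity
  exact ramsey_of_bouquets (kitePt A) (kap A) (kap_sum h1) (dd A) (kite_dist (by nlinarith))
    (kite_foc h1) (fun _ hm => exists_bouquet A hA0 hA1 hm)

end Vale.Agent.P058h29
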