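import Vale.Agent.P058h29.Kite

/-!
The kite with the parameter `3 - 2 √2` is not subtransitive: the dependency of its four points has
a real conjugate which expresses one point as a strict convex combination of the three others.
-/

noncomputable section

namespace Vale.Agent.P058h29

open Vale.Agent.P058 Vale.Agent.P058h12

/-- A semilinear additive map separating a given nonzero real. -/
lemma exists_conj {v : ℝ} (hv : v ≠ 0) : ∃ Λ : ℝ → ℝ, (∀ x y, Λ (x + y) = Λ x + Λ y) ∧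
    (∀ x, Λ (Real.sqrt 2 * x) = - Real.sqrt 2 * Λ x) ∧ Λ v ≠ 0 := by
  have ht : Real.sqrt 2 * Real.sqrt 2 = 2 := Real.mul_self_sqrt (by norm_num)
  obtain ⟨π₀, hπ⟩ : ∃ π₀ : Module.Dual ℚ ℝ, π₀ v ≠ 0 := by
    by_contra hno
    push Not at hno
    exact hv ((Module.forall_dual_apply_eq_zero_iff ℚ v).1 hno)
  refine ⟨fun x => (π₀ (Real.sqrt 2 * x) : ℝ) - Real.sqrt 2 * (π₀ x : ℝ), ?_, ?_, ?_⟩
  · intro x y
    simp only [mul_add, map_add]
    push_cast
    ring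
  · intro x
    have h1 : Real.sqrt 2 * (Real.sqrt 2 * x) = (2 : ℚ) • x := by
      rw [← mul_assoc, ht, Rat.smul_def]
      norm_num
    simp only [h1, map_smul, smul_eq_mul]
    push_cast
    linear_combination (π₀ x : ℝ) * (-ht)
  · intro h
    have h2 : ((π₀ (Real.sqrt 2 * v) : ℚ) : ℝ) = Real.sqrt 2 * (π₀ v : ℝ) := by linarith
    have hirr : Irrational (Real.sqrt 2 * ((π₀ v : ℚ) : ℝ)) := by
      rw [mul_comm]
      exact irrational_sqrt_two.ratCast_mul hπ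
    exact hirr ⟨_, h2⟩

/-- The strict convexity argument. -/
lemma convex_core {Ω : Type} [Fintype Ω] (t : ℝ) (ht : 0 ≤ t) (z : Fin 4 → Ω → ℝ)
    (hrel : ∀ ω, z 0 ω + z 2 ω + (2 + 2 * t) * z 1 ω = (4 + 2 * t) * z 3 ω)
    (hS : ∀ i, ∑ ω, z i ω ^ 2 = ∑ ω, z 0 ω ^ 2) (ω : Ω) : z 0 ω = z 1 ω := by
  have hpt : ∀ ω, (4 + 2 * t) ^ 2 * z 3 ω ^ 2 + ((z 0 ω - z 2 ω) ^ 2 + (2 + 2 * t) * (z 0 ω - z 1 ω) ^ 2
      + (2 + 2 * t) * (z 2 ω - z 1 ω) ^ 2) =
      (4 + 2 * t) * (z 0 ω ^ 2 + z 2 ω ^ 2 + (2 + 2 * t) * z 1 ω ^ 2) := by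
    intro ω
    have h := hrel ω
    have h2 : (4 + 2 * t) ^ 2 * z 3 ω ^ 2 = (z 0 ω + z 2 ω + (2 + 2 * t) * z 1 ω) ^ 2 := by
      rw [h]
      ring
    rw [h2]
    ring
  have hsum := Finset.sum_congr (rfl : (Finset.univ : Finset Ω) = Finset.univ) (fun ω _ => hpt ω)
  simp only [Finset.sum_add_distrib, ← Finset.mul_sum, hS 1, hS 2, hS 3] at hsum
  have hD : ∑ ω, ((z 0 ω - z 2 ω) ^ 2 + (2 + 2 * t) * (z 0 ω - z 1 ω) ^ 2
      + (2 + 2 * t) * (z 2 ω - z 1 ω) ^ 2) = 0 := by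
    simp only [Finset.sum_add_distrib, ← Finset.mul_sum]
    linarith
  have hnn : ∀ ω ∈ Finset.univ, 0 ≤ (z 0 ω - z 2 ω) ^ 2 + (2 + 2 * t) * (z 0 ω - z 1 ω) ^ 2
      + (2 + 2 * t) * (z 2 ω - z 1 ω) ^ 2 := fun ω _ => by positivity
  have h0 := (Finset.sum_eq_zero_iff_of_nonneg hnn).1 hD ω (Finset.mem_univ ω)
  have h1 : 0 ≤ (z 0 ω - z 2 ω) ^ 2 := by positivity
  have h2 : 0 ≤ (2 + 2 * t) * (z 2 ω - z 1 ω) ^ 2 := by positivity
  have h3 : 0 ≤ (2 + 2 * t) * (z 0 ω - z 1 ω) ^ 2 := by positivity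
  have h4 : (2 + 2 * t) * (z 0 ω - z 1 ω) ^ 2 = 0 := by linarith
  have h5 : (z 0 ω - z 1 ω) ^ 2 = 0 := by
    rcases mul_eq_zero.1 h4 with h | h
    · exfalso
      linarith
    · exact h
  have h6 := pow_eq_zero_iff (two_ne_zero) |>.1 h5
  linarith

/-- Averaging over the isometry group of a transitive set. -/
lemma sum_isoGroup_eq {n : ℕ} {Y : Set (E n)} [Fintype (isoGroup Y)]
    (htrans : ∀ x ∈ Y, ∀ y ∈ Y, ∃ g : E n ≃ᵢ E n, g '' Y = Y ∧ g x = y)
    (F : Y → ℝ) (u v : Y) :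
    ∑ π : isoGroup Y, F (π.1 u) = ∑ π : isoGroup Y, F (π.1 v) := by
  obtain ⟨g, hg, hgu⟩ := htrans u u.2 v v.2
  have hmaps : ∀ w : Y, g w ∈ Y := fun w => by
    have h1 : g w ∈ g '' Y := ⟨w, w.2, rfl⟩
    rwa [hg] at h1
  have hsurj : ∀ w : Y, ∃ x : Y, g x = w := fun w => by
    have h1 : (w : E n) ∈ g '' Y := by rw [hg]; exact w.2
    obtain ⟨x, hx, hxw⟩ := h1
    exact ⟨⟨x, hx⟩, hxw⟩
  let πg : Equiv.Perm Y := Equiv.ofBijective (fun w => ⟨g w, hmaps w⟩)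
    ⟨fun a b h => Subtype.ext (g.injective (Subtype.ext_iff.1 h)),
      fun w => by
        obtain ⟨x, hx⟩ := hsurj w
        exact ⟨x, Subtype.ext hx⟩⟩
  have hπg : ∀ w : Y, ((πg w : Y) : E n) = g w := fun w => rfl
  have hmem : πg ∈ isoGroup Y := by
    intro a b
    rw [hπg, hπg]
    exact g.dist_eq _ _
  let γ : isoGroup Y := ⟨πg, hmem⟩
  have h1 : πg u = v := Subtype.ext hgu
  have h2 := Equiv.sum_comp (Equiv.mulRight γ) (fun π : isoGroup Y => F (π.1 u))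
  rw [← h2]
  refine Finset.sum_congr rfl fun π _ => ?_
  show F ((π.1 * πg) u) = F (π.1 v)
  rw [Equiv.Perm.mul_apply, h1]

/-- **The kite with parameter `3 - 2 √2` is not subtransitive.** -/
theorem kite_not_subtransitive : ¬ IsSubtransitive (kite (3 - 2 * Real.sqrt 2)) := by
  rintro ⟨n, Y, φ, ⟨hfin, htrans⟩, hφ, hd⟩
  classical
  set t : ℝ := Real.sqrt 2 with ht
  have ht2 : t * t = 2 := Real.mul_self_sqrt (by norm_num)
  have ht0 : 0 ≤ t := Real.sqrt_nonneg 2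
  set A : ℝ := 3 - 2 * t with hA
  let p : Fin 4 → E 2 := kitePt A
  have : Fintype Y := hfin.fintype
  let y : Fin 4 → Y := fun i => ⟨φ (p i), hφ _ (Set.mem_range_self i)⟩
  have hdy : ∀ i j, ‖((y i : Y) : E n) - (y j : Y)‖ = ‖p i - p j‖ := by
    intro i j
    rw [← dist_eq_norm, ← dist_eq_norm]
    exact hd _ (Set.mem_range_self i) _ (Set.mem_range_self j)
  -- the dependency of the four points
  let c : Fin 4 → ℝ := ![1 / 2, -(t - 1), 1 / 2, -(2 - t)]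
  have hc : ∑ i, c i = 0 := by
    rw [Fin.sum_univ_four]
    simp [c]
    ring
  have hp : ∑ i, c i • p i = 0 := by
    ext i
    rw [Fin.sum_univ_four]
    fin_cases i <;> simp [c, p, kitePt, hA] <;> ring
  -- it transfers to the images under all elements of the group
  have hdep : ∀ π : isoGroup Y, ∀ f : Fin n, ∑ i, c i * ((π.1 (y i) : Y) : E n) f = 0 := by
    intro π f
    have h1 : ‖∑ i, c i • ((π.1 (y i) : Y) : E n)‖ = ‖∑ i, c i • p i‖ := by
      apply norm_sum_eq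
      · exact hc
      · intro i j
        rw [← hdy i j, ← dist_eq_norm, ← dist_eq_norm]
        exact π.2 _ _
    rw [hp, norm_zero, norm_eq_zero] at h1
    have h2 := congrArg (fun w : E n => w f) h1
    simp only [Fin.sum_univ_four, PiLp.add_apply, PiLp.smul_apply, smul_eq_mul] at h2
    rw [Fin.sum_univ_four]
    simpa using h2
  -- two of the images differ in some coordinate
  have hne : ((y 0 : Y) : E n) ≠ (y 1 : Y) := by
    intro h
    have h1 := hdy 0 1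
    rw [h, sub_self, norm_zero] at h1
    have h2 : p 0 = p 1 := by
      apply sub_eq_zero.1
      exact norm_eq_zero.1 h1.symm
    have h3 := congrArg (fun w : E 2 => w 1) h2
    simp [p, kitePt] at h3
    have h4 : t ≤ 3 / 2 := by
      nlinarith
    nlinarith
  obtain ⟨f₀, hf₀⟩ : ∃ f, ((y 0 : Y) : E n) f ≠ ((y 1 : Y) : E n) f := by
    by_contra hno
    push Not at hno
    apply hne
    ext f
    exact hno f
  obtain ⟨Λ, hadd, hconj, hΛ⟩ := exists_conj (v := ((y 0 : Y) : E n) f₀ - ((y 1 : Y) : E n) f₀)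
    (sub_ne_zero.2 hf₀)
  have hΛ0 : Λ 0 = 0 := by
    have := hadd 0 0
    simp only [add_zero] at this
    linarith
  have hΛneg : ∀ x, Λ (-x) = - Λ x := by
    intro x
    have := hadd x (-x)
    rw [add_neg_cancel, hΛ0] at this
    linarith
  have hfin' : Finite (isoGroup Y) := inferInstance
  have : Fintype (isoGroup Y) := Fintype.ofFinite _
  let Ω : Type := isoGroup Y × Fin n
  let z : Fin 4 → Ω → ℝ := fun i ω => Λ (((ω.1.1 (y i) : Y) : E n) ω.2)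
  have hrel : ∀ ω, z 0 ω + z 2 ω + (2 + 2 * t) * z 1 ω = (4 + 2 * t) * z 3 ω := by
    intro ω
    have h1 := hdep ω.1 ω.2
    rw [Fin.sum_univ_four] at h1
    simp only [c] at h1
    simp only [Matrix.cons_val] at h1
    set a₀ := ((ω.1.1 (y 0) : Y) : E n) ω.2
    set a₁ := ((ω.1.1 (y 1) : Y) : E n) ω.2
    set a₂ := ((ω.1.1 (y 2) : Y) : E n) ω.2
    set a₃ := ((ω.1.1 (y 3) : Y) : E n) ω.2
    have h2 : a₀ + a₂ + a₁ + a₁ + t * a₃ + t * a₃ = t * a₁ + t * a₁ + a₃ + a₃ + a₃ + a₃ := by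
      linear_combination 2 * h1
    have h3 := congrArg Λ h2
    have hconj' : ∀ x, Λ (t * x) = -t * Λ x := hconj
    simp only [hadd, hconj'] at h3
    show Λ a₀ + Λ a₂ + (2 + 2 * t) * Λ a₁ = (4 + 2 * t) * Λ a₃
    linear_combination h3
  have hS : ∀ i, ∑ ω, z i ω ^ 2 = ∑ ω, z 0 ω ^ 2 := by
    intro i
    have h := sum_isoGroup_eq (Y := Y) htrans
      (fun w => ∑ f : Fin n, Λ ((w : E n) f) ^ 2) (y i) (y 0)
    show ∑ ω : isoGroup Y × Fin n, z i ω ^ 2 = ∑ ω : isoGroup Y × Fin n, z 0 ω ^ 2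
    rw [Fintype.sum_prod_type, Fintype.sum_prod_type]
    exact h
  have hfinal := convex_core t ht0 z hrel hS ((1 : isoGroup Y), f₀)
  have h1 : Λ (((y 0 : Y) : E n) f₀) = Λ (((y 1 : Y) : E n) f₀) := hfinal
  apply hΛ
  rw [sub_eq_add_neg, hadd, hΛneg, h1]
  ring

end Vale.Agent.P058h29
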